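import Vale.Agent.P092.H370.Po4
import Vale.Agent.P092.H43.PPur

/-!
P092, stages 2 and 3, row [PRX-G] (helper43): opposition of the singular `j`-spaces of a form
`Frm σ ε J` (letters of helper370): the determinant criterion, symmetry, openness, invariance,
common opposites of two singular `j`-spaces, and the cells of the target (`PPur.Prx`).
-/

set_option linter.all false

open Matrix Module Set Topology TopologicalSpace

namespace Vale.Agent.P092.H43.G

open Vale.Agent.P092.H303 (FormGroup)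
open Vale.Agent.P092.H714.Cl
open Vale.Agent.P092.H100.Gr (Gr Fr sp sp_oq sp_surj fr_val_cont)
open Vale.Agent.P092.H370.Po
open Vale.Agent.P092.H43.PPur (Prx)

section alg

variable {n : Type} [Fintype n] [DecidableEq n] {k : Type} [Field k]
  {σ : k →+* k} {ε : k} {J : Matrix n n k}

/-- opposition of subspaces (meant for subspaces of the same dimension) -/
def Opg (σ : k →+* k) (J : Matrix n n k) (X Y : Submodule k (n → k)) : Prop :=
  ∀ x ∈ X, (∀ y ∈ Y, hf σ J x y = 0) → x = 0

theorem hf_sum_left {ι : Type} (s : Finset ι) (f : ι → n → k) (y : n → k) :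
    hf σ J (∑ i ∈ s, f i) y = ∑ i ∈ s, hf σ J (f i) y := by
  classical
  induction s using Finset.induction_on with
  | empty => rw [Finset.sum_empty, Finset.sum_empty, hf_zero_left]
  | insert a s ha ih => rw [Finset.sum_insert ha, Finset.sum_insert ha, hf_add_left, ih]

/-- the products of two families -/
def gm (σ : k →+* k) (J : Matrix n n k) {j : ℕ} (v w : Fin j → n → k) : Matrix (Fin j) (Fin j) k :=
  Matrix.of fun a b => hf σ J (v a) (w b)

theorem vecMul_gm {j : ℕ} (v w : Fin j → n → k) (c : Fin j → k) (b : Fin j) :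
    (c ᵥ* gm σ J v w) b = hf σ J (∑ a, c a • v a) (w b) := by
  rw [hf_sum_left]
  change ∑ a, c a * hf σ J (v a) (w b) = _
  exact Finset.sum_congr rfl fun a _ => (hf_smul_left σ J (c a) (v a) (w b)).symm

/-- **the determinant criterion** -/
theorem opg_span {j : ℕ} {v w : Fin j → n → k} (hv : LinearIndependent k v) :
    Opg σ J (Submodule.span k (range v)) (Submodule.span k (range w)) ↔
      (gm σ J v w).det ≠ 0 := by
  have hz : ∀ x : n → k, (∀ b, hf σ J x (w b) = 0) →
      ∀ y ∈ Submodule.span k (range w), hf σ J x y = 0 := by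
    intro x hx y hy
    induction hy using Submodule.span_induction with
    | mem y hy => obtain ⟨b, rfl⟩ := hy; exact hx b
    | zero => exact hf_zero_right σ J _
    | add y y' _ _ h1 h2 => rw [hf_add_right, h1, h2, add_zero]
    | smul c y _ h1 => rw [hf_smul_right, h1, mul_zero]
  constructor
  · intro h h0
    obtain ⟨c, hc, hc0⟩ := Matrix.exists_vecMul_eq_zero_iff.2 h0
    have h1 : ∑ a, c a • v a ∈ Submodule.span k (range v) :=
      Submodule.sum_mem _ fun a _ => Submodule.smul_mem _ _ (Submodule.subset_span ⟨a, rfl⟩)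
    have h2 := h _ h1 (hz _ fun b => by rw [← vecMul_gm, hc0]; rfl)
    exact hc (funext fun a => Fintype.linearIndependent_iff.1 hv c h2 a)
  · intro h x hx hxy
    obtain ⟨c, rfl⟩ := (Submodule.mem_span_range_iff_exists_fun k).1 hx
    have h1 : c ᵥ* gm σ J v w = 0 := funext fun b => by
      rw [vecMul_gm]
      exact hxy _ (Submodule.subset_span ⟨b, rfl⟩)
    have h2 : c = 0 := Matrix.eq_zero_of_vecMul_eq_zero h h1
    rw [h2]
    exact Finset.sum_eq_zero fun a _ => zero_smul k (v a)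

theorem gm_swap (hF : Frm σ ε J) {j : ℕ} (v w : Fin j → n → k) :
    gm σ J w v = ε • ((gm σ J v w).map σ)ᵀ := by
  ext a b
  exact hF.herm (v b) (w a)

theorem det_gm_swap (hF : Frm σ ε J) {j : ℕ} {v w : Fin j → n → k}
    (h : (gm σ J v w).det ≠ 0) : (gm σ J w v).det ≠ 0 := by
  have he : ε ≠ 0 := by
    intro e
    have := hF.eps
    rw [e, mul_zero] at this
    exact zero_ne_one this
  rw [gm_swap hF, det_smul, det_transpose]
  have h1 : ((gm σ J v w).map σ).det = σ (gm σ J v w).det := (RingHom.map_det σ _).symm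
  rw [h1]
  exact mul_ne_zero (pow_ne_zero _ he) fun e => h ((map_eq_zero σ).1 e)

/-- frames of a subspace -/
theorem exists_frame {X : Submodule k (n → k)} {j : ℕ} (h : finrank k X = j) :
    ∃ v : Fin j → n → k, LinearIndependent k v ∧ Submodule.span k (range v) = X := by
  obtain ⟨v, hv⟩ := sp_surj (k := k) (ι := n) (j := j) ⟨X, h⟩
  exact ⟨v.1, v.2, congrArg Subtype.val hv⟩

/-- symmetry -/
theorem Opg.symm (hF : Frm σ ε J) {X Y : Submodule k (n → k)} (hd : finrank k X = finrank k Y)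
    (h : Opg σ J X Y) : Opg σ J Y X := by
  obtain ⟨v, hv, hvX⟩ := exists_frame (X := X) rfl
  obtain ⟨w, hw, hwY⟩ := exists_frame (X := Y) hd.symm
  rw [← hvX, ← hwY, opg_span hv] at h
  rw [← hvX, ← hwY, opg_span hw]
  exact det_gm_swap hF h

theorem opg_disjoint (hF : Frm σ ε J) {X Y : Submodule k (n → k)} :
    Opg σ J X Y ↔ Disjoint X (perp σ J Y) := by
  rw [Submodule.disjoint_def]
  constructor
  · intro h x hx hy
    exact h x hx fun y hyY => hF.symm_zero (hy y hyY)
  · intro h x hx hy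
    exact h x hx fun y hyY => hF.symm_zero (hy y hyY)

/-- a singular vector orthogonal to `C` with `h(a, z) = 1` -/
theorem exists_dual (hF : Frm σ ε J) {C : Submodule k (n → k)} (hC : Sing σ J C) {a : n → k}
    (ha : hf σ J a a = 0) (hCa : ∀ x ∈ C, hf σ J x a = 0) (haC : a ∉ C) :
    ∃ z, hf σ J z z = 0 ∧ (∀ x ∈ C, hf σ J x z = 0) ∧ hf σ J a z ≠ 0 := by
  have h1 := sing_sup_span hF hC ha hCa
  have h2 : a ∈ C ⊔ Submodule.span k {a} :=
    (le_sup_right : Submodule.span k {a} ≤ _) (Submodule.mem_span_singleton_self a)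
  obtain ⟨f, hf1, hf2⟩ := Submodule.exists_le_ker_of_notMem haC
  have h3 : f.comp (C ⊔ Submodule.span k {a}).subtype ≠ 0 := by
    intro e
    exact hf1 (LinearMap.congr_fun e ⟨a, h2⟩)
  obtain ⟨z, hz, hz2⟩ := exists_iso_prod hF h1 (f.comp (C ⊔ Submodule.span k {a}).subtype) h3
  refine ⟨z, hz, fun x hx => ?_, ?_⟩
  · rw [hz2 ⟨x, (le_sup_left : C ≤ _) hx⟩]
    exact LinearMap.mem_ker.1 (hf2 hx)
  · rw [hz2 ⟨a, h2⟩]
    exact hf1

/-- **the step**: one singular vector of `C^⊥` off two hyperplanes -/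
theorem exists_avoid (hF : Frm σ ε J) {C : Submodule k (n → k)} (hC : Sing σ J C) {a b : n → k}
    (ha : hf σ J a a = 0) (hCa : ∀ x ∈ C, hf σ J x a = 0) (haC : a ∉ C)
    (hb : hf σ J b b = 0) (hCb : ∀ x ∈ C, hf σ J x b = 0) (hbC : b ∉ C) :
    ∃ z, hf σ J z z = 0 ∧ (∀ x ∈ C, hf σ J x z = 0) ∧ hf σ J a z ≠ 0 ∧ hf σ J b z ≠ 0 := by
  obtain ⟨z, hz, hCz, haz⟩ := exists_dual hF hC ha hCa haC
  by_cases hbz : hf σ J b z = 0
  · by_cases hba : hf σ J b a = 0
    · obtain ⟨t, ht, hCt, hbt⟩ := exists_dual hF hC hb hCb hbC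
      by_cases hat : hf σ J a t = 0
      · have h1 : hf σ J a (z + t) ≠ 0 := by rwa [hf_add_right, hat, add_zero]
        obtain ⟨α, hα⟩ := hF.exists_corr ha h1
        refine ⟨z + t + α • a, hα, fun x hx => ?_, ?_, ?_⟩
        · rw [hf_add_right, hf_add_right, hf_smul_right, hCz x hx, hCt x hx, hCa x hx, mul_zero,
            add_zero, add_zero]
        · rwa [hf_add_right, hf_smul_right, ha, mul_zero, add_zero]
        · rwa [hf_add_right, hf_add_right, hf_smul_right, hbz, hba, mul_zero, add_zero, zero_add]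
      · exact ⟨t, ht, hCt, hat, hbt⟩
    · -- move along `a`
      obtain ⟨c, hc0, hc⟩ := hF.cc
      have haz' : hf σ J a z ≠ 0 := haz
      -- normalise
      obtain ⟨d, hd0, hd⟩ : ∃ d : k, d ≠ 0 ∧ d * hf σ J a z + ε * σ (d * hf σ J a z) = 0 :=
        ⟨c * (hf σ J a z)⁻¹, mul_ne_zero hc0 (inv_ne_zero haz), by
          rw [mul_assoc, inv_mul_cancel₀ haz, mul_one, hc]⟩
      refine ⟨z + d • a, ?_, fun x hx => ?_, ?_, ?_⟩
      · rw [hf_add_left, hf_add_right, hf_smul_left, hf_add_right, hf_smul_right, hf_smul_right,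
          hz, ha, hF.herm a z]
        rw [map_mul] at hd
        linear_combination hd
      · rw [hf_add_right, hf_smul_right, hCz x hx, hCa x hx, mul_zero, add_zero]
      · rwa [hf_add_right, hf_smul_right, ha, mul_zero, add_zero]
      · rw [hf_add_right, hf_smul_right, hbz, zero_add]
        exact mul_ne_zero (fun e => hd0 ((map_eq_zero σ).1 e)) hba
  · exact ⟨z, hz, hCz, haz, hbz⟩

/-- a nonzero vector of `A` orthogonal to a smaller space -/
theorem exists_orth {A C : Submodule k (n → k)} (h : finrank k C < finrank k A) :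
    ∃ a ∈ A, a ≠ 0 ∧ ∀ x ∈ C, hf σ J a x = 0 := by
  obtain ⟨w, hw, hwC⟩ := exists_frame (X := C) rfl
  let f : A →ₗ[k] (Fin (finrank k C) → k) :=
    { toFun := fun a b => hf σ J a.1 (w b)
      map_add' := fun a a' => funext fun b => hf_add_left σ J a.1 a'.1 (w b)
      map_smul' := fun c a => funext fun b => hf_smul_left σ J c a.1 (w b) }
  have h1 : LinearMap.ker f ≠ ⊥ := LinearMap.ker_ne_bot_of_finrank_lt (by
    rw [finrank_fin_fun]
    exact h)
  obtain ⟨a, ha, ha0⟩ := Submodule.exists_mem_ne_zero_of_ne_bot h1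
  refine ⟨a.1, a.2, fun e => ha0 (Subtype.ext e), fun x hx => ?_⟩
  rw [← hwC] at hx
  induction hx using Submodule.span_induction with
  | mem y hy => obtain ⟨b, rfl⟩ := hy; exact congrFun (LinearMap.mem_ker.1 ha) b
  | zero => exact hf_zero_right σ J _
  | add y y' _ _ h1 h2 => rw [hf_add_right, h1, h2, add_zero]
  | smul c y _ h1 => rw [hf_smul_right, h1, mul_zero]

/-- enlarging a part of an opposite -/
theorem opg_step (hF : Frm σ ε J) {A C : Submodule k (n → k)} (h : Opg σ J C A) {a y : n → k}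
    (haA : a ∈ A) (hCa : ∀ x ∈ C, hf σ J x a = 0) (hay : hf σ J a y ≠ 0) :
    Opg σ J (C ⊔ Submodule.span k {y}) A := by
  intro x hx hxA
  obtain ⟨c, hc, t, ht, rfl⟩ := Submodule.mem_sup.1 hx
  obtain ⟨s, rfl⟩ := Submodule.mem_span_singleton.1 ht
  have h1 := hxA a haA
  rw [hf_add_left, hCa c hc, zero_add, hf_smul_left] at h1
  have h2 : hf σ J y a ≠ 0 := fun e => hay (hF.symm_zero e)
  have h3 : s = 0 := (mul_eq_zero.1 h1).resolve_right h2
  rw [h3, zero_smul, add_zero] at hxA ⊢
  exact h c hc hxA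

/-- **common opposites** of two singular spaces of the same dimension -/
theorem exists_opg (hF : Frm σ ε J) {A B : Submodule k (n → k)} (hA : Sing σ J A)
    (hB : Sing σ J B) {j : ℕ} (hAj : finrank k A = j) (hBj : finrank k B = j) {i : ℕ}
    (hi : i ≤ j) :
    ∃ C, Sing σ J C ∧ finrank k C = i ∧ Opg σ J C A ∧ Opg σ J C B := by
  induction i with
  | zero =>
    refine ⟨⊥, sing_bot, finrank_bot k (n → k), ?_, ?_⟩
    · exact fun x hx _ => (Submodule.mem_bot k).1 hx
    · exact fun x hx _ => (Submodule.mem_bot k).1 hx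
  | succ i ih =>
    obtain ⟨C, hC, hCi, hCA, hCB⟩ := ih (by omega)
    have key : ∀ {D : Submodule k (n → k)}, Sing σ J D → finrank k D = j → Opg σ J C D →
        ∃ a ∈ D, hf σ J a a = 0 ∧ (∀ x ∈ C, hf σ J x a = 0) ∧ a ∉ C := by
      intro D hD hDj hCD
      obtain ⟨a, haD, ha0, ha⟩ := exists_orth (σ := σ) (J := J) (A := D) (C := C) (by omega)
      refine ⟨a, haD, hD.zero haD, fun x hx => hF.symm_zero (ha x hx), fun haC => ha0 ?_⟩
      exact hCD a haC fun y hy => hD a haD y hy
    obtain ⟨a, haA, ha, hCa, haC⟩ := key hA hAj hCA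
    obtain ⟨b, hbB, hb, hCb, hbC⟩ := key hB hBj hCB
    obtain ⟨y, hy, hCy, hay, hby⟩ := exists_avoid hF hC ha hCa haC hb hCb hbC
    have hyC : y ∉ C := fun e => hay (hF.symm_zero (hCa y e))
    exact ⟨C ⊔ Submodule.span k {y}, sing_sup_span hF hC hy hCy, by rw [finrank_sup_span hyC, hCi],
      opg_step hF hCA haA hCa hay, opg_step hF hCB hbB hCb hby⟩

/-! ### Letters of `SGr` -/

/-- opposition of singular `j`-spaces -/
def Opp {j : ℕ} (X Y : SGr σ J j) : Prop := Opg σ J X.S Y.S

theorem opp_iff {j : ℕ} {X Y : SGr σ J j} :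
    Opp X Y ↔ ∀ x ∈ X.S, (∀ y ∈ Y.S, hf σ J x y = 0) → x = 0 := Iff.rfl

theorem opp_iff_disjoint (hF : Frm σ ε J) {j : ℕ} {X Y : SGr σ J j} :
    Opp X Y ↔ Disjoint X.S (perp σ J Y.S) := opg_disjoint hF

theorem opp_symm (hF : Frm σ ε J) {j : ℕ} {X Y : SGr σ J j} (h : Opp X Y) : Opp Y X :=
  Opg.symm hF (X.dim.trans Y.dim.symm) h

theorem opp_comm (hF : Frm σ ε J) {j : ℕ} {X Y : SGr σ J j} : Opp X Y ↔ Opp Y X :=
  ⟨opp_symm hF, opp_symm hF⟩

/-- **common opposites** -/
theorem opp_meet (hF : Frm σ ε J) {j : ℕ} (A B : SGr σ J j) : ∃ Y, Opp Y A ∧ Opp Y B := by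
  obtain ⟨C, hC, hCj, h1, h2⟩ := exists_opg hF A.sing B.sing A.dim B.dim le_rfl
  exact ⟨SGr.mk' C hC hCj, h1, h2⟩

theorem opp_all (hF : Frm σ ε J) {j : ℕ} (A : SGr σ J j) : ∃ Y, Opp A Y := by
  obtain ⟨Y, h, -⟩ := opp_meet hF A A
  exact ⟨Y, opp_symm hF h⟩

/-- points: opposite means not orthogonal -/
theorem opp_iff_not_col {X Y : SGr σ J 1} : Opp X Y ↔ ¬ Col X Y := by
  constructor
  · intro h hc
    have h1 : X.S = ⊥ := (Submodule.eq_bot_iff _).2 fun x hx => h x hx fun y hy => hc x hx y hy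
    have h2 := X.dim
    rw [h1, finrank_bot] at h2
    exact zero_ne_one h2
  · intro h x hx hxy
    by_contra hx0
    refine h fun x' hx' y hy => ?_
    obtain ⟨c, hc⟩ := exists_smul_eq_of_finrank_eq_one X.dim (x := ⟨x, hx⟩)
      (fun e => hx0 (congrArg Subtype.val e)) ⟨x', hx'⟩
    have h1 : x' = c • x := (congrArg Subtype.val hc).symm
    rw [h1, hf_smul_left, hxy y hy, mul_zero]

/-- invariance under the isometry group -/
theorem opp_smul {j : ℕ} (g : FormGroup σ J) {X Y : SGr σ J j} :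
    Opp (g • X) (g • Y) ↔ Opp X Y := by
  have key : ∀ (g : FormGroup σ J) {X Y : SGr σ J j}, Opp X Y → Opp (g • X) (g • Y) := by
    intro g X Y h x hx hxy
    rw [smul_S, mem_act] at hx
    obtain ⟨x₀, hx₀, rfl⟩ := hx
    have h1 : x₀ = 0 := h x₀ hx₀ fun y hy => by
      have h2 := hxy (y ᵥ* (g.1⁻¹).1) (vecMul_mem_act hy)
      rwa [mem_formGroup.1 (inv_mem g.2)] at h2
    rw [h1, zero_vecMul]
  refine ⟨fun h => ?_, key g⟩
  have h1 := key g⁻¹ h
  rwa [inv_smul_smul, inv_smul_smul] at h1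

end alg

section top

variable {n : Type} [Fintype n] [DecidableEq n] {k : Type} [NontriviallyNormedField k]
  {σ : k →+* k} {ε : k} {J : Matrix n n k}

theorem frOpp_open (hσ : Continuous σ) {j : ℕ} :
    IsOpen {p : Fr k n j × Fr k n j | Opg σ J (sp p.1).1 (sp p.2).1} := by
  have e : {p : Fr k n j × Fr k n j | Opg σ J (sp p.1).1 (sp p.2).1} =
      {p : Fr k n j × Fr k n j | (gm σ J p.1.1 p.2.1).det ≠ 0} := by
    ext p
    exact opg_span p.1.2
  rw [e]
  refine isOpen_ne_fun ?_ continuous_const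
  refine Continuous.matrix_det (continuous_matrix fun a b => ?_)
  exact (continuous_hf hσ).comp
    (((continuous_apply a).comp (fr_val_cont.comp continuous_fst)).prodMk
      ((continuous_apply b).comp (fr_val_cont.comp continuous_snd)))

theorem grOpp_open (hσ : Continuous σ) {j : ℕ} :
    IsOpen {p : Gr k n j × Gr k n j | Opg σ J p.1.1 p.2.1} := by
  have h := (sp_oq (k := k) (ι := n) (j := j)).prodMap (sp_oq (k := k) (ι := n) (j := j))
  rw [← h.isQuotientMap.isOpen_preimage]
  exact frOpp_open hσ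

/-- opposition is open -/
theorem opp_open (hσ : Continuous σ) {j : ℕ} :
    IsOpen {p : SGr σ J j × SGr σ J j | Opp p.1 p.2} :=
  (grOpp_open (J := J) hσ).preimage
    ((SGr.val_cont.comp continuous_fst).prodMk (SGr.val_cont.comp continuous_snd))

theorem op (hσ : Continuous σ) {j : ℕ} (z : SGr σ J j) : IsOpen {y : SGr σ J j | Opp y z} :=
  (opp_open hσ).preimage (continuous_id.prodMk continuous_const)

/-- **[PRX-G]** the cells of the singular `j`-spaces, from proximality -/
theorem prxG (hσ : Continuous σ) (hF : Frm σ ε J) {j : ℕ} {Γ H : Type} [Group H]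
    [MulAction H (SGr σ J j)] {q : Γ → H}
    (h : ∀ (z : SGr σ J j) (D : Set (SGr σ J j)), IsCompact D → (∀ y ∈ D, Opp y z) →
      ∀ U : Set (SGr σ J j), IsOpen U → U.Nonempty → ∃ γ, ∀ y ∈ D, q γ • y ∈ U) :
    Prx q (fun z : SGr σ J j => {y : SGr σ J j | Opp y z}) where
  op := op hσ
  all := opp_all hF
  meet := opp_meet hF
  prox := fun z D hD hc U hU hne => h z D hc (fun y hy => hD hy) U hU hne

end top

end Vale.Agent.P092.H43.G
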