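import Vale.Agent.P092.H43.G.Opp
import Vale.Agent.P092.H631.CLProx
import Vale.Agent.P092.H306.G.Pur
import Vale.Agent.P092.CL.Lt

/-!
P092, stages 2 and 3 (helper43): the geometric fields of `PurIn` (helper306) for the points and
the maximal singular spaces of a form `Frm σ ε J` of Witt index `r ≥ 2`, and for the letters `lt`.
-/

set_option linter.all false

open Matrix Module Set Topology TopologicalSpace MeasureTheory

namespace Vale.Agent.P092.H43.G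

open Vale.Agent.P092.H303 (FormGroup Idx hyp)
open Vale.Agent.P092.H714.Cl
open Vale.Agent.P092.H370.Po
open Vale.Agent.P092.H631.P2 (OppS opp1_iff_S opp2_iff_S)

section alg

variable {n : Type} [Fintype n] [DecidableEq n] {k : Type} [Field k]
  {σ : k →+* k} {ε : k} {J : Matrix n n k} {r : ℕ}

theorem oppS_iff {j : ℕ} {X Y : SGr σ J j} : OppS X Y ↔ Opp X Y := Iff.rfl

/-- two points have a common opposite -/
theorem meetP (hF : Frm σ ε J) (hW : WI σ J r) (hr : 2 ≤ r) (a b : SGr σ J 1) :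
    ∃ y : SGr σ J 1, (∀ l : SGr σ J r, Inc y l → ¬ Inc a l) ∧
      (∀ l : SGr σ J r, Inc y l → ¬ Inc b l) := by
  obtain ⟨y, h1, h2⟩ := opp_meet hF a b
  exact ⟨y, (opp1_iff_S hF hW hr).2 h1, (opp1_iff_S hF hW hr).2 h2⟩

/-- two maximal spaces have a common opposite -/
theorem meetM (hF : Frm σ ε J) (hW : WI σ J r) (a b : SGr σ J r) :
    ∃ y : SGr σ J r, (∀ x : SGr σ J 1, Inc x y → ¬ Inc x a) ∧
      (∀ x : SGr σ J 1, Inc x y → ¬ Inc x b) := by
  obtain ⟨y, h1, h2⟩ := opp_meet hF a b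
  exact ⟨y, (opp2_iff_S hF hW).2 h1, (opp2_iff_S hF hW).2 h2⟩

end alg

section top

variable {n : Type} [Fintype n] [DecidableEq n] {k : Type} [NontriviallyNormedField k]
  {σ : k →+* k} {ε : k} {J : Matrix n n k} {r : ℕ}

theorem openP (hσ : Continuous σ) (hF : Frm σ ε J) (hW : WI σ J r) (hr : 2 ≤ r) :
    IsOpen {p : SGr σ J 1 × SGr σ J 1 | ∀ l : SGr σ J r, Inc p.1 l → ¬ Inc p.2 l} := by
  have e : {p : SGr σ J 1 × SGr σ J 1 | ∀ l : SGr σ J r, Inc p.1 l → ¬ Inc p.2 l} =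
      {p : SGr σ J 1 × SGr σ J 1 | Opp p.1 p.2} := by
    ext p
    exact opp1_iff_S hF hW hr
  rw [e]
  exact opp_open hσ

theorem openM (hσ : Continuous σ) (hF : Frm σ ε J) (hW : WI σ J r) :
    IsOpen {p : SGr σ J r × SGr σ J r | ∀ x : SGr σ J 1, Inc x p.1 → ¬ Inc x p.2} := by
  have e : {p : SGr σ J r × SGr σ J r | ∀ x : SGr σ J 1, Inc x p.1 → ¬ Inc x p.2} =
      {p : SGr σ J r × SGr σ J r | Opp p.1 p.2} := by
    ext p
    exact opp2_iff_S hF hW
  rw [e]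
  exact opp_open hσ

end top

section letters

variable {k : Type} [NontriviallyNormedField k] [ProperSpace k] [MeasurableSpace k] {ι : Type}
  [Fintype ι] [DecidableEq ι] {s : ℕ} {σ : k →+* k} {ε : k} {J₀ : Matrix ι ι k}

/-- **the inputs of purity for the letters `lt`**, from the two capacities -/
theorem purIn_lt [Fact (Continuous σ)] (hF : Frm σ ε (hyp (s + 2) ε J₀))
    (hW : WI σ (hyp (s + 2) ε J₀) (s + 2)) {w : k} (hw : w ≠ 0) (hσ : σ w = w) (μ₁ : Measure k)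
    (μ₂ : Measure (CL.V2 σ ε))
    (c1 : ∀ {Γ : Type} (q : Γ → FormGroup σ (hyp (s + 2) ε J₀)),
      (CL.lt hF hw hσ μ₁ μ₂).UD q → H306.G.CapG (fun γ => (CL.lt hF hw hσ μ₁ μ₂).nm (q γ)) q
        ((CL.lt hF hw hσ μ₁ μ₂).na1 q) (CL.lt hF hw hσ μ₁ μ₂).opp1)
    (c2 : ∀ {Γ : Type} (q : Γ → FormGroup σ (hyp (s + 2) ε J₀)),
      (CL.lt hF hw hσ μ₁ μ₂).UD q → H306.G.CapG (fun γ => (CL.lt hF hw hσ μ₁ μ₂).nm (q γ)) q
        ((CL.lt hF hw hσ μ₁ μ₂).na2 q) (CL.lt hF hw hσ μ₁ μ₂).opp2) :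
    H306.G.PurIn (CL.lt hF hw hσ μ₁ μ₂) where
  o1 := openP Fact.out hF hW (by omega)
  o2 := openM Fact.out hF hW
  m1 := meetP hF hW (by omega)
  m2 := meetM hF hW
  c1 := c1
  c2 := c2

end letters

end Vale.Agent.P092.H43.G
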