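import Vale.Agent.P092.H43.G.PurIn
import Vale.Agent.P092.H315P.G5
import Vale.Agent.P092.CL.Quad

/-!
P092, stages 2 and 3 (helper43): purity for the letters `lt`: `PurIn` (helper306) with the
capacities of helper315, and `CL.PurStmt` for every Witt index `s + 2`.
-/

set_option linter.all false

open scoped InnerProductSpace ENNReal
open Matrix Module Set Topology TopologicalSpace MeasureTheory Filter ContinuousLinearMap

namespace Vale.Agent.P092.H43.G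

open Vale.Agent.P092.H303 (FormGroup Idx hyp)
open Vale.Agent.P092.H714.Cl
open Vale.Agent.P092.H370.Po

variable {k : Type} [NontriviallyNormedField k] [ProperSpace k] [MeasurableSpace k] {ι : Type}
  [Fintype ι] [DecidableEq ι] {s : ℕ} {σ : k →+* k} {ε : k} {J₀ : Matrix ι ι k}

/-- **`PurIn` for the letters `lt`**, no input left -/
theorem purIn_lt' [Fact (Continuous σ)] (hF : Frm σ ε (hyp (s + 2) ε J₀))
    (hW : WI σ (hyp (s + 2) ε J₀) (s + 2)) (hσn : ∀ x, ‖σ x‖ = ‖x‖) {w : k} (hw : w ≠ 0)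
    (hσ : σ w = w) (μ₁ : Measure k) (μ₂ : Measure (CL.V2 σ ε)) :
    H306.G.PurIn (CL.lt hF hw hσ μ₁ μ₂) :=
  purIn_lt hF hW hw hσ μ₁ μ₂ (fun q hq => H315P.G.cap1 hF hw hσ μ₁ μ₂ hσn hW hq)
    (fun q hq => H315P.G.cap2 hF hw hσ μ₁ μ₂ hσn hW hq)

/-- **[CL-PUR] for the letters `lt`** -/
theorem purStmt_lt [BorelSpace k] [Fact (Continuous σ)] (hF : Frm σ ε (hyp (s + 2) ε J₀))
    (hW : WI σ (hyp (s + 2) ε J₀) (s + 2)) (hσn : ∀ x, ‖σ x‖ = ‖x‖) {w : k} (hw : w ≠ 0)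
    (hσ : σ w = w) (μ₁ : Measure k) [IsFiniteMeasureOnCompacts μ₁] [μ₁.IsOpenPosMeasure]
    (μ₂ : Measure (CL.V2 σ ε)) (geo : CL.Geo (CL.lt hF hw hσ μ₁ μ₂)) :
    CL.PurStmt (CL.lt hF hw hσ μ₁ μ₂) := by
  intro E Γ K _ _ _ _ _ _ 𝒰 ι π lam W Ω m q U11 p11 U12 p12 U21 p21 U22 p22 h
  haveI : IsFiniteMeasureOnCompacts (CL.lt hF hw hσ μ₁ μ₂).μ₁ :=
    inferInstanceAs (IsFiniteMeasureOnCompacts μ₁)
  haveI : (CL.lt hF hw hσ μ₁ μ₂).μ₁.IsOpenPosMeasure := inferInstanceAs μ₁.IsOpenPosMeasure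
  exact H306.G.pur_cl geo (purIn_lt' hF hW hσn hw hσ μ₁ μ₂) h

end Vale.Agent.P092.H43.G
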